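import Vale.Agent.P284.H366.UP
import Mathlib.Analysis.SpecificLimits.Basic
import Mathlib.Order.Filter.Ultrafilter.Defs

/-!
# Affine isometric actions: Shalom's rescaling

A finitely generated group with an affine isometric action without fixed points on a Hilbert space
has an affine isometric action on a Hilbert space whose displacement is bounded below.
-/

open Filter Topology

noncomputable section

namespace Vale.Agent.P284.H998.T

open Vale.Agent.P284.H366

section
variable {Γ : Type} [Group Γ] {W : Type} [NormedAddCommGroup W] [InnerProductSpace ℂ W]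

/-- the cocycle rule -/
def IsCoc (π : Γ →* (W ≃ₗᵢ[ℂ] W)) (b : Γ → W) : Prop :=
  ∀ g h, b (g * h) = b g + π g (b h)

/-- the total displacement of the generators -/
def dsp (π : Γ →* (W ≃ₗᵢ[ℂ] W)) (b : Γ → W) (S : Finset Γ) (w : W) : ℝ :=
  ∑ s ∈ S, ‖b s + π s w - w‖

variable {π : Γ →* (W ≃ₗᵢ[ℂ] W)} {b : Γ → W}

lemma pmul (g h : Γ) (w : W) : π (g * h) w = π g (π h w) := by
  rw [map_mul]
  rfl

lemma pinv (g : Γ) (w : W) : π g⁻¹ (π g w) = w := by
  rw [← pmul, inv_mul_cancel, map_one]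
  rfl

lemma IsCoc.one (hb : IsCoc π b) : b 1 = 0 := by
  have h := hb 1 1
  simpa using h

lemma IsCoc.inv (hb : IsCoc π b) (g : Γ) : b g⁻¹ = -π g⁻¹ (b g) := by
  have h := hb g⁻¹ g
  rw [inv_mul_cancel, hb.one] at h
  exact eq_neg_of_add_eq_zero_left h.symm

/-- the cocycle with base point `x` and scale `r` -/
def reb (π : Γ →* (W ≃ₗᵢ[ℂ] W)) (b : Γ → W) (x : W) (r : ℝ) (g : Γ) : W :=
  ((r : ℂ)⁻¹) • (b g + π g x - x)

lemma reb_coc (hb : IsCoc π b) (x : W) (r : ℝ) : IsCoc π (reb π b x r) := by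
  intro g h
  unfold reb
  rw [map_smul, ← smul_add]
  congr 1
  rw [hb g h, pmul, map_sub, map_add]
  abel

lemma reb_dsp (x : W) {r : ℝ} (hr : 0 < r) (S : Finset Γ) (y : W) :
    dsp π (reb π b x r) S y = dsp π b S (x + (r : ℂ) • y) / r := by
  unfold dsp
  rw [Finset.sum_div]
  refine Finset.sum_congr rfl fun s _ => ?_
  have hr' : (r : ℂ) ≠ 0 := by exact_mod_cast hr.ne'
  have h1 : reb π b x r s + π s y - y =
      (r : ℂ)⁻¹ • (b s + π s (x + (r : ℂ) • y) - (x + (r : ℂ) • y)) := by
    unfold reb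
    have h2 : (r : ℂ)⁻¹ • ((r : ℂ) • (π s y)) = π s y := inv_smul_smul₀ hr' _
    have h3 : (r : ℂ)⁻¹ • ((r : ℂ) • y) = y := inv_smul_smul₀ hr' _
    rw [map_add, map_smul]
    simp only [smul_sub, smul_add, h2, h3]
    abel
  rw [h1, norm_smul, norm_inv, Complex.norm_real, Real.norm_of_nonneg hr.le, div_eq_inv_mul]

lemma dsp_nonneg (S : Finset Γ) (w : W) : 0 ≤ dsp π b S w :=
  Finset.sum_nonneg fun _ _ => norm_nonneg _

lemma dsp_continuous (S : Finset Γ) : Continuous (dsp π b S) := by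
  unfold dsp
  refine continuous_finsetSum _ fun s _ => ?_
  have := (π s).continuous
  fun_prop

lemma fix_of_gen (hb : IsCoc π b) {S : Set Γ} (hS : Subgroup.closure S = ⊤) {w : W}
    (h : ∀ s ∈ S, b s + π s w = w) (g : Γ) : b g + π g w = w := by
  have hg : g ∈ Subgroup.closure S := by rw [hS]; trivial
  induction hg using Subgroup.closure_induction with
  | mem s hs => exact h s hs
  | one => simp [hb.one]
  | mul g h _ _ h1 h2 =>
    rw [hb g h, pmul, add_assoc, ← map_add, h2, h1]
  | inv g _ h1 =>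
    have h2 : w - b g = π g w := by rw [sub_eq_iff_eq_add']; exact h1.symm
    rw [hb.inv, neg_add_eq_sub, ← map_sub, h2, pinv]

/-- **Shalom's lemma** -/
lemma exists_base [CompleteSpace W] (hb : IsCoc π b) {S : Finset Γ}
    (hS : Subgroup.closure (S : Set Γ) = ⊤) (hno : ¬ ∃ w, ∀ g, b g + π g w = w) (k : ℕ) :
    ∃ x, 0 < dsp π b S x ∧
      ∀ y, ‖y - x‖ ≤ k * dsp π b S x → dsp π b S x / 2 ≤ dsp π b S y := by
  have hpos : ∀ x, 0 < dsp π b S x := by
    intro x
    refine lt_of_le_of_ne (dsp_nonneg S x) fun h0 => hno ⟨x, fix_of_gen hb hS fun s hs => ?_⟩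
    have := (Finset.sum_eq_zero_iff_of_nonneg fun _ _ => norm_nonneg _).1 h0.symm s hs
    rwa [norm_eq_zero, sub_eq_zero] at this
  by_contra hcon
  push Not at hcon
  choose f hf1 hf2 using fun x => hcon x (hpos x)
  have x0 : W := 0
  set u : ℕ → W := fun j => f^[j] x0 with hu
  have hs : ∀ j, u (j + 1) = f (u j) := fun j => Function.iterate_succ_apply' f j x0
  have hd : ∀ j, dsp π b S (u j) ≤ dsp π b S x0 / 2 ^ j := by
    intro j
    induction j with
    | zero => simp [hu]
    | succ j ih =>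
      rw [hs, pow_succ, ← div_div]
      exact (hf2 (u j)).le.trans (div_le_div_of_nonneg_right ih (by norm_num))
  have hdist : ∀ j, dist (u j) (u (j + 1)) ≤ (2 * (k * dsp π b S x0)) / 2 / 2 ^ j := by
    intro j
    rw [hs, dist_comm, dist_eq_norm]
    refine (hf1 (u j)).trans ?_
    calc (k : ℝ) * dsp π b S (u j) ≤ k * (dsp π b S x0 / 2 ^ j) :=
          mul_le_mul_of_nonneg_left (hd j) (Nat.cast_nonneg k)
      _ = _ := by ring
  have hc : CauchySeq u := cauchySeq_of_le_geometric_two hdist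
  obtain ⟨x, hx⟩ := cauchySeq_tendsto_of_complete hc
  have h1 : Tendsto (fun j => dsp π b S (u j)) atTop (𝓝 (dsp π b S x)) :=
    ((dsp_continuous S).tendsto x).comp hx
  have h2 : Tendsto (fun j : ℕ => dsp π b S x0 / 2 ^ j) atTop (𝓝 0) := by
    have := (tendsto_pow_atTop_nhds_zero_of_lt_one (r := (1 / 2 : ℝ)) (by norm_num)
      (by norm_num)).const_mul (dsp π b S x0)
    simpa [div_eq_mul_inv] using this
  have h3 : dsp π b S x ≤ 0 := le_of_tendsto_of_tendsto' h1 h2 hd
  exact absurd h3 (not_le.2 (hpos x))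

end

section
variable {Γ : Type} [Group Γ] {W : Type} [NormedAddCommGroup W] [InnerProductSpace ℂ W]
  [CompleteSpace W]

/-- **(L1)** A finitely generated group with an affine isometric action without fixed points has an
affine isometric action with displacement bounded below. -/
theorem shalom {S : Finset Γ} (hS : Subgroup.closure (S : Set Γ) = ⊤) (π : Γ →* (W ≃ₗᵢ[ℂ] W))
    (b : Γ → W) (hb : ∀ g h, b (g * h) = b g + π g (b h)) (hno : ¬ ∃ w, ∀ g, b g + π g w = w) :
    ∃ (W' : Type) (_ : NormedAddCommGroup W') (_ : InnerProductSpace ℂ W') (_ : CompleteSpace W')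
      (π' : Γ →* (W' ≃ₗᵢ[ℂ] W')) (b' : Γ → W'), (∀ g h, b' (g * h) = b' g + π' g (b' h)) ∧
      ∀ w, 1 / 2 ≤ ∑ s ∈ S, ‖b' s + π' s w - w‖ := by
  have hb' : IsCoc π b := hb
  choose x hx1 hx2 using exists_base hb' hS hno
  obtain ⟨U, hU⟩ : ∃ U : Ultrafilter ℕ, (U : Filter ℕ) ≤ atTop := Ultrafilter.exists_le _
  let β : Γ → ℕ → W := fun g k => reb π b (x k) (dsp π b S (x k)) g
  have hcoc : ∀ k, IsCoc π fun g => β g k := fun k => reb_coc hb' (x k) _
  have hbd : ∀ g, Bd (H := fun _ => W) (β g) := by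
    intro g
    have hg : g ∈ Subgroup.closure (S : Set Γ) := by rw [hS]; trivial
    induction hg using Subgroup.closure_induction with
    | mem s hs =>
      refine ⟨1, fun k => ?_⟩
      have hr := hx1 k
      have h1 : ‖b s + π s (x k) - x k‖ ≤ dsp π b S (x k) :=
        Finset.single_le_sum (f := fun s => ‖b s + π s (x k) - x k‖)
          (fun _ _ => norm_nonneg _) hs
      change ‖((dsp π b S (x k) : ℂ)⁻¹) • (b s + π s (x k) - x k)‖ ≤ 1
      rw [norm_smul, norm_inv, Complex.norm_real, Real.norm_of_nonneg hr.le, ← div_eq_inv_mul]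
      exact (div_le_one hr).2 h1
    | one =>
      refine ⟨0, fun k => ?_⟩
      rw [(hcoc k).one, norm_zero]
    | mul g h _ _ h1 h2 =>
      obtain ⟨C, hC⟩ := h1
      obtain ⟨D, hD⟩ := h2
      refine ⟨C + D, fun k => ?_⟩
      have h3 : β (g * h) k = β g k + π g (β h k) := hcoc k g h
      rw [h3]
      refine (norm_add_le _ _).trans (add_le_add (hC k) ?_)
      rw [LinearIsometryEquiv.norm_map]
      exact hD k
    | inv g _ h1 =>
      obtain ⟨C, hC⟩ := h1
      refine ⟨C, fun k => ?_⟩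
      rw [(hcoc k).inv, norm_neg, LinearIsometryEquiv.norm_map]
      exact hC k
  refine ⟨UP (fun _ => W) U, inferInstance, inferInstance, inferInstance, upRep U fun _ => π,
    fun g => mk U (β g), fun g h => ?_, fun w => ?_⟩
  · have h3 : β (g * h) = β g + fun k => π g (β h k) := funext fun k => hcoc k g h
    change mk U (β (g * h)) = mk U (β g) + upRep U (fun _ => π) g (mk U (β h))
    rw [upRep_mk _ _ (hbd h), ← mk_add (hbd g) (Bd.iso (fun _ => π g) (hbd h)), h3]
  · refine dense_mk (fun w => 1 / 2 ≤ ∑ s ∈ S, ‖mk U (β s) + upRep U (fun _ => π) s w - w‖)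
      ?_ (fun y hy => ?_) w
    · refine isClosed_le continuous_const ?_
      refine continuous_finsetSum _ fun s _ => ?_
      have := (upRep U (fun _ : ℕ => π) s).continuous
      fun_prop
    · have h1 : Tendsto (fun k => ∑ s ∈ S, ‖β s k + π s (y k) - y k‖) U
          (𝓝 (∑ s ∈ S, ‖mk U (β s) + upRep U (fun _ => π) s (mk U y) - mk U y‖)) := by
        refine tendsto_finsetSum _ fun s _ => ?_
        rw [upRep_mk _ _ hy, ← mk_add (hbd s) (Bd.iso (fun _ => π s) hy),
          ← mk_sub ((hbd s).add (Bd.iso (fun _ => π s) hy)) hy]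
        exact norm_mk (((hbd s).add (Bd.iso (fun _ => π s) hy)).sub hy)
      obtain ⟨C, hC⟩ := hy
      obtain ⟨k0, hk0⟩ := exists_nat_ge C
      refine ge_of_tendsto h1 (hU (eventually_atTop.2 ⟨k0, fun k hk => ?_⟩))
      have hr := hx1 k
      have h2 : ∑ s ∈ S, ‖β s k + π s (y k) - y k‖ =
          dsp π b S (x k + (dsp π b S (x k) : ℂ) • y k) / dsp π b S (x k) :=
        reb_dsp (x k) hr S (y k)
      rw [h2, le_div_iff₀ hr]
      have h3 := hx2 k (x k + (dsp π b S (x k) : ℂ) • y k) (by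
        rw [add_sub_cancel_left, norm_smul, Complex.norm_real, Real.norm_of_nonneg hr.le, mul_comm]
        refine mul_le_mul_of_nonneg_right ?_ hr.le
        exact (hC k).trans (hk0.trans (by exact_mod_cast hk)))
      linarith

end

end Vale.Agent.P284.H998.T
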